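import Vale.Agent.P134J.Loc

/-!
# P134J: the support function of the two-point quotient along a reflection
-/

open Filter Topology
open scoped ContDiff RealInnerProductSpace
open Vale.Agent.P366.Stmt (E)
open Vale.Agent.P366W (dvg trc inner_grad smooth_gradient)
open Vale.Agent.P134B Vale.Agent.P134T

noncomputable section

namespace Vale.Agent.P134J

variable {n : ℕ} {C : ℝ} {u : E n → ℝ}

theorem exists_refl {e : E n} (he : ‖e‖ = 1) : ∃ R : E n ≃ₗᵢ[ℝ] E n,
    (∀ v, R v = v - (2 * ⟪v, e⟫) • e) ∧ ∀ v, R.symm v = v - (2 * ⟪v, e⟫) • e := by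
  have h : ∀ v, (ℝ ∙ e).reflection v = (2 * ⟪v, e⟫) • e - v := fun v => by
    rw [Submodule.reflection_singleton_apply, he, real_inner_comm, two_smul, two_mul, add_smul]
    simp
  refine ⟨(ℝ ∙ e).reflection.trans (LinearIsometryEquiv.neg ℝ), fun v => by simp [h], fun v => ?_⟩
  simp [h, inner_neg_left]
  abel

/-- the distance of the two points -/
def dd (x₀ e : E n) (d : ℝ) (x : E n) : ℝ := d - 2 * ⟪x - x₀, e⟫

/-- the second point -/
def yy (x₀ e : E n) (d : ℝ) (x : E n) : E n := x + dd x₀ e d x • e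

/-- the numerator -/
def num (u : E n → ℝ) (x₀ e : E n) (d : ℝ) (x : E n) : ℝ :=
  ps u x + dd x₀ e d x * pe u e x - ps u (yy x₀ e d x)

/-- the support function -/
def sup (u : E n → ℝ) (x₀ e : E n) (d η : ℝ) (x : E n) : ℝ :=
  (2 * num u x₀ e d x - η) * (dd x₀ e d x ^ 2)⁻¹

variable {x₀ e : E n} {d η μ : ℝ}

theorem dd_self : dd x₀ e d x₀ = d := by simp [dd]

theorem yy_self : yy x₀ e d x₀ = x₀ + d • e := by rw [yy, dd_self]

theorem cd_dd {k : WithTop ℕ∞} : ContDiff ℝ k (dd x₀ e d) :=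
  contDiff_const.sub (contDiff_const.mul (cd_lin x₀ e))

theorem grad_dd (x : E n) : gradient (dd x₀ e d) x = (-2 : ℝ) • e := by
  unfold dd
  rw [grad_sub (differentiableAt_const _) (d2 (contDiff_const.mul (cd_lin x₀ e)) x), grad_const,
    grad_cmul _ (d2 (cd_lin x₀ e) x), grad_lin]
  simp

theorem lap_dd (x : E n) : lap (dd x₀ e d) x = 0 := by
  unfold lap
  rw [show gradient (dd x₀ e d) = fun _ => (-2 : ℝ) • e from funext grad_dd, dvg_const]

theorem cd_yy {k : WithTop ℕ∞} : ContDiff ℝ k (yy x₀ e d) :=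
  contDiff_id.add (cd_dd.smul contDiff_const)

theorem cd_num (h : Ok C u) : ContDiff ℝ ∞ (num u x₀ e d) :=
  (h.smp.add (cd_dd.mul (h.tcpe e))).sub (h.smp.comp cd_yy)

theorem cd_sup (h : Ok C u) (hd : d ≠ 0) : ContDiffAt ℝ ∞ (sup u x₀ e d η) x₀ :=
  ((contDiff_const.mul (cd_num h)).sub contDiff_const).contDiffAt.mul
    ((cd_dd.pow 2).contDiffAt.inv (by rw [dd_self]; exact pow_ne_zero 2 hd))

theorem Lf_ps (h : Ok C u) (x : E n) : Lf u (ps u) x = -(2 * √2 * u x * (1 - qq u x / 2)) := by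
  have h1 : lap (ps u) x = -(√2 * u x * qq u x) := h.tr x
  rw [Lf, h1, show gradient (ps u) x = pp u x from rfl, real_inner_self_eq_norm_sq, qq]
  ring

/-- the jet of the support function at the base point -/
theorem sup_jet (h : Ok C u) (he : ‖e‖ = 1) (hd : d ≠ 0) (hμ : sup u x₀ e d η x₀ = μ)
    (hy : pp u (x₀ + d • e) = pp u x₀ - (μ * d) • e) :
    gradient (sup u x₀ e d η) x₀ = (2 / d) • (SS u x₀ e + μ • e) ∧
    d ^ 2 / 2 * (Lf u (sup u x₀ e d η) x₀ + PP u x₀ * μ + 2 * √2 * u x₀ * μ ^ 2) =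
      4 * (⟪SS u x₀ e, e⟫ + μ) + √2 * (u (x₀ + d • e) * qq u (x₀ + d • e) - u x₀ * qq u x₀)
        - (PP u x₀ + 2 * √2 * u x₀ * μ) * (d * pe u e x₀ - μ * d ^ 2 / 2) := by
  obtain ⟨R, hR, hR'⟩ := exists_refl he
  have ee : ⟪e, e⟫ = 1 := by rw [real_inner_self_eq_norm_sq, he]; norm_num
  have ey : yy x₀ e d = fun x => (d + 2 * ⟪x₀, e⟫) • e + R x := funext fun x => by
    rw [yy, dd, hR, inner_sub_left]
    module
  have ey0 : (d + 2 * ⟪x₀, e⟫) • e + R x₀ = x₀ + d • e := by rw [← yy_self, ey]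
  have s2 := c2 h.smp
  have p2 := c2 (h.tcpe e)
  have gy : gradient (fun x => ps u (yy x₀ e d x)) x₀
      = pp u x₀ - (2 * pe u e x₀) • e + (μ * d) • e := by
    simp only [ey]
    rw [grad_iso R _ (d2 s2 _), ey0, hR', show gradient (ps u) (x₀ + d • e) = _ from hy,
      inner_sub_left, real_inner_smul_left, ee, pe]
    module
  have ly : lap (fun x => ps u (yy x₀ e d x)) x₀
      = -(√2 * u (x₀ + d • e) * qq u (x₀ + d • e)) := by
    simp only [ey]
    rw [lap_iso R _ s2, ey0]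
    exact h.tr _
  have cy : ContDiff ℝ 2 fun x => ps u (yy x₀ e d x) := s2.comp cd_yy
  have cm : ContDiff ℝ 2 fun x => dd x₀ e d x * pe u e x := cd_dd.mul p2
  have gn : gradient (num u x₀ e d) x₀ = d • (SS u x₀ e - μ • e) := by
    unfold num
    rw [grad_sub (d2 (s2.add cm) _) (d2 cy _), grad_add (d2 s2 _) (d2 cm _),
      grad_mul (d2 cd_dd _) (d2 p2 _), gy, grad_dd, h.gp, dd_self,
      show gradient (ps u) x₀ = pp u x₀ from rfl]
    module
  have pq : ⟪pp u x₀, pp u x₀⟫ = 1 - qq u x₀ := by rw [real_inner_self_eq_norm_sq, qq]; ring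
  have Ld : Lf u (dd x₀ e d) x₀ = 4 * √2 * u x₀ * pe u e x₀ := by
    rw [Lf, lap_dd, grad_dd, real_inner_smul_right, pe]
    ring
  have Ln : Lf u (num u x₀ e d) x₀ = √2 * (u (x₀ + d • e) * qq u (x₀ + d • e) - u x₀ * qq u x₀)
      - PP u x₀ * (d * pe u e x₀) - 4 * ⟪SS u x₀ e, e⟫ + 2 * √2 * u x₀ * μ * (d * pe u e x₀) := by
    have a1 : Lf u (fun x => ps u (yy x₀ e d x)) x₀ = -(√2 * u (x₀ + d • e) * qq u (x₀ + d • e))
        - 2 * √2 * u x₀ * (1 - qq u x₀ - 2 * pe u e x₀ ^ 2 + μ * d * pe u e x₀) := by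
      rw [Lf, ly, gy, inner_add_right, inner_sub_right, real_inner_smul_right,
        real_inner_smul_right, pq, show ⟪pp u x₀, e⟫ = pe u e x₀ from rfl]
      ring
    unfold num
    rw [Lf_eq, Lb_sub (s2.add cm).contDiffAt cy.contDiffAt, Lb_add s2.contDiffAt cm.contDiffAt,
      Lb_mul cd_dd.contDiffAt p2.contDiffAt, ← Lf_eq, ← Lf_eq, ← Lf_eq, ← Lf_eq, a1, Lf_ps h, Ld,
      h.jac, grad_dd, h.gp, dd_self, real_inner_smul_left, real_inner_comm]
    ring
  have cs : ContDiffAt ℝ 2 (sup u x₀ e d η) x₀ := (cd_sup h hd).of_le (by norm_cast)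
  have cn := c2 (cd_num (x₀ := x₀) (e := e) (d := d) h)
  have cdd : ContDiff ℝ 2 fun x => dd x₀ e d x * dd x₀ e d x := cd_dd.mul cd_dd
  have ev : (fun x => sup u x₀ e d η x * (dd x₀ e d x * dd x₀ e d x))
      =ᶠ[𝓝 x₀] fun x => 2 * num u x₀ e d x - η := by
    have : ∀ᶠ x in 𝓝 x₀, dd x₀ e d x ≠ 0 :=
      (cd_dd (k := 0)).continuous.continuousAt.eventually_ne (by rwa [dd_self])
    refine this.mono fun x hx => ?_
    simp only [sup]
    field_simp
  have gdd : gradient (fun x => dd x₀ e d x * dd x₀ e d x) x₀ = (-(4 * d)) • e := by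
    rw [grad_mul (d2 cd_dd _) (d2 cd_dd _), grad_dd, dd_self]
    module
  have g1 := ev.gradient_eq
  rw [grad_mul (d_at cs) (d2 cdd _), grad_sub (d2 (contDiff_const.mul cn) _)
    (differentiableAt_const _), grad_cmul _ (d2 cn _), grad_const, gn, gdd, hμ, dd_self] at g1
  have gs : gradient (sup u x₀ e d η) x₀ = (2 / d) • (SS u x₀ e + μ • e) := by
    have a : (d * d) • gradient (sup u x₀ e d η) x₀ = (d * d) • (2 / d) • (SS u x₀ e + μ • e) := by
      rw [eq_sub_of_add_eq' g1, smul_smul (d * d), show d * d * (2 / d) = 2 * d by field_simp]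
      module
    exact smul_right_injective _ (mul_ne_zero hd hd) a
  refine ⟨gs, ?_⟩
  have l1 : Lb (-(2 * √2 * u x₀) • pp u x₀) _ x₀ = _ := Lb_congr ev
  rw [Lb_mul cs cdd.contDiffAt, Lb_mul cd_dd.contDiffAt cd_dd.contDiffAt,
    Lb_sub (contDiff_const.mul cn).contDiffAt contDiffAt_const, Lb_cmul _ cn.contDiffAt, Lb_const,
    ← Lf_eq, ← Lf_eq, ← Lf_eq, Ld, Ln, gs, gdd, grad_dd, hμ, dd_self] at l1
  simp only [real_inner_smul_left, real_inner_smul_right, inner_add_left, ee] at l1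
  have e1 : 2 / d * d = 2 := by field_simp
  linear_combination l1 / 2 + (4 * (⟪SS u x₀ e, e⟫ + μ)) * e1

end Vale.Agent.P134J
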