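import Vale.Agent.P134J.Alg
import Vale.Agent.P134J.Sup
import Vale.Agent.P134B.KI2
import Vale.Agent.P134B.SYM
import Vale.Agent.P134C.Defs
import Vale.Agent.P134W.Defs

/-!
# P134J: the two-point inequality for one branch (E1)
-/

open Filter Topology
open scoped ContDiff RealInnerProductSpace
open Vale.Agent.P366.Stmt (E)
open Vale.Agent.P366W (dvg trc inner_grad)
open Vale.Agent.P134B Vale.Agent.P134T
open Vale.Agent.P134C (th Pt Lt)

noncomputable section

namespace Vale.Agent.P134J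

variable {n : ℕ} {C : ℝ} {u φ : E n → ℝ} {x : E n}

theorem cd_qq (h : Ok C u) : ContDiff ℝ ∞ (qq u) := contDiff_const.sub (h.tcp.norm_sq ℝ)

theorem cd_th (h : Ok C u) : ContDiff ℝ ∞ (th u) := contDiff_const.sub ((cd_qq h).div_const _)

theorem th_ge (u : E n → ℝ) (x : E n) : 1 / 2 ≤ th u x := by
  have := qq_le u x
  rw [th]
  linarith

theorem th_pos (u : E n → ℝ) (x : E n) : 0 < th u x := lt_of_lt_of_le (by norm_num) (th_ge u x)

theorem Pt_nn (h : Ok C u) (x : E n) : 0 ≤ Pt u x := by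
  have := h.q0 x
  have := h.tff_pos x
  have := th_pos u x
  unfold Pt PP hs
  positivity

theorem grad_th (h : Ok C u) (x : E n) : gradient (th u) x = SS u x (pp u x) := by
  rw [show th u = fun y => 1 - 1 / 2 * qq u y from funext fun y => by rw [th]; ring,
    grad_sub (differentiableAt_const _) (d2 (contDiff_const.mul (c2 (cd_qq h))) x), grad_const,
    grad_cmul _ (d2 (c2 (cd_qq h)) x), h.gq]
  module

theorem Lf_th (h : Ok C u) (x : E n) :
    Lf u (th u) x = hs (SS u x) - PP u x * (1 - qq u x) := by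
  have e1 : gradient (th u) = fun y => fderiv ℝ (pp u) y (pp u y) := funext (grad_th h)
  have e2 : (fun y => trc (fderiv ℝ (pp u) y)) = fun y => -√2 * (u y * qq u y) :=
    funext fun y => (h.tr y).trans (by ring)
  have du := d2 (c2 h.sm) x
  have dq := d2 (c2 (cd_qq h)) x
  rw [Lf, lap, grad_th h, e1, Ki2.dvg_self h.tcp x (h.sy x), e2, fderiv_const_mul (du.fun_mul dq),
    _root_.smul_apply, Ki2.fd_mul du dq, h.gu, h.gq, real_inner_smul_left, real_inner_smul_left,
    h.sy, PP, real_inner_self_eq_norm_sq, show ‖pp u x‖ ^ 2 = 1 - qq u x by rw [qq]; ring,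
    smul_eq_mul, show fderiv ℝ (pp u) x = SS u x from rfl]
  ring

/-- the drift of `Lt` -/
def bt (u : E n → ℝ) (x : E n) : E n :=
  -(2 * √2 * u x) • pp u x + (2 / th u x) • gradient (th u) x

theorem Lt_eq (u φ : E n → ℝ) (x : E n) : Lt u φ x = Lb (bt u x) φ x := by
  rw [bt, Lb_drift, ← Lf_eq, real_inner_smul_left, Lt]

/-- the function `1 / (ps + th / φ)` -/
def quo (u φ : E n → ℝ) (y : E n) : ℝ := φ y / (th u y + ps u y * φ y)

theorem cd_den (h : Ok C u) (hφ : ContDiffAt ℝ 2 φ x) :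
    ContDiffAt ℝ 2 (fun y => th u y + ps u y * φ y) x :=
  (c2 (cd_th h)).contDiffAt.add ((c2 h.smp).contDiffAt.mul hφ)

theorem cd_quo (h : Ok C u) (hφ : ContDiffAt ℝ 2 φ x) (hW : th u x + ps u x * φ x ≠ 0) :
    ContDiffAt ℝ 2 (quo u φ) x := hφ.div (cd_den h hφ) hW

theorem quo_jet (h : Ok C u) (hφ : ContDiffAt ℝ 2 φ x) {μ W : ℝ} (hμ : φ x = μ)
    (eW : W = th u x + ps u x * μ) (hW : W ≠ 0) :
    gradient (quo u φ) x = (W ^ 2)⁻¹ • (th u x • gradient φ x
      - μ • (SS u x (pp u x) + μ • pp u x)) ∧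
    Lt u (quo u φ) x + Pt u x * (μ * th u x / W ^ 2) = aR (SS u x) (th u x) (ps u x) μ W
      (Lf u φ x + PP u x * μ + 2 * √2 * u x * μ ^ 2) (gradient φ x) (pp u x) := by
  have cθ := (c2 (cd_th h)).contDiffAt (x := x)
  have cψ := (c2 h.smp).contDiffAt (x := x)
  have cW := cd_den h hφ
  have e0 : th u x + ps u x * φ x = W := by rw [hμ, eW]
  have hW' : th u x + ps u x * φ x ≠ 0 := e0 ▸ hW
  have cI : ContDiffAt ℝ 2 (fun y => (th u y + ps u y * φ y)⁻¹) x := cW.inv hW'
  have eq : quo u φ = fun y => φ y * (th u y + ps u y * φ y)⁻¹ := rfl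
  have gW : gradient (fun y => th u y + ps u y * φ y) x
      = SS u x (pp u x) + μ • pp u x + ps u x • gradient φ x := by
    rw [grad_add (d_at cθ) (d_at (cψ.mul hφ)), grad_mul (d_at cψ) (d_at hφ), grad_th h, hμ,
      show gradient (ps u) x = pp u x from rfl]
    module
  have hθ := (th_pos u x).ne'
  constructor
  · rw [eq, grad_mul (d_at hφ) (d_at cI), grad_inv (d_at cW) hW', gW, e0, hμ,
      show th u x = W - ps u x * μ by rw [eW]; ring]
    match_scalars <;> (field_simp; try ring)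
  · rw [Lt_eq, eq, Lb_mul hφ cI, Lb_inv cW hW', grad_inv (d_at cW) hW', gW,
      Lb_add cθ (cψ.mul hφ), Lb_mul cψ hφ, ← Lt_eq, ← Lt_eq, ← Lt_eq, e0, hμ, aR,
      ← real_inner_self_eq_norm_sq, Lt, Lt, Lt, Lf_th h, Lf_ps h, grad_th h, Pt,
      show gradient (ps u) x = pp u x from rfl, show 1 - qq u x / 2 = th u x from rfl,
      show qq u x = 2 - 2 * th u x by rw [th]; ring]
    generalize ⟪SS u x (pp u x) + μ • pp u x + ps u x • gradient φ x,
      SS u x (pp u x) + μ • pp u x + ps u x • gradient φ x⟫ = A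
    simp only [inner_add_right, real_inner_smul_right, real_inner_comm (gradient φ x)]
    field_simp
    rw [eW]
    ring

/-- (E1) for a support of the opening -/
theorem e1 (h : Ok C u) {a : E n} {R W : ℝ} (s : P134W.Sup u φ x a R)
    (hT : ∀ v, 0 ≤ ⟪v, P134W.TT u x v⟫) (eW : W = th u x + ps u x * P134W.m1 u x) (hW : 0 < W)
    (hN : ∀ v, 0 ≤ ⟪th u x • v - ps u x • SS u x v, v⟫) (η : E n) :
    aL (SS u x) (th u x) (ps u x) (P134W.m1 u x / W) (gradient (quo u φ) x) η + th u x * R / W ^ 2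
      ≤ Lt u (quo u φ) x + Pt u x * (P134W.m1 u x * th u x / W ^ 2) := by
  obtain ⟨g, l⟩ := quo_jet h s.low.c2 s.low.eq eW hW.ne'
  have k := alg (SS u x) (h.sy x) (K := 2 * ⟪a, P134W.TT u x a⟫) (th_pos u x) hW eW (gradient φ x)
    (pp u x) η (fun _ => hN) fun ξ => by
      have := hT (a - ξ)
      rw [s.gr]
      simp only [P134W.TT, map_sub, smul_sub, inner_add_right, inner_sub_left, inner_sub_right,
        real_inner_smul_right, ← h.sy x a ξ, real_inner_comm ξ] at this ⊢
      linarith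
  rw [l, g, s.lf]
  unfold aR at k ⊢
  linear_combination k

end Vale.Agent.P134J
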