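import Vale.Agent.P134T.Calc

/-!
# P134J: the rules for the Laplacian at a point
-/

open Filter Topology
open scoped ContDiff RealInnerProductSpace
open Vale.Agent.P366.Stmt (E)
open Vale.Agent.P366W (dvg trc inner_grad dvg_add dvg_sub dvg_smul dvg_congr dvg_eq)
open Vale.Agent.P134B Vale.Agent.P134T

noncomputable section

namespace Vale.Agent.P134J

variable {n : ℕ} {f g : E n → ℝ} {x : E n}

theorem ev_d (hf : ContDiffAt ℝ 2 f x) : ∀ᶠ y in 𝓝 x, DifferentiableAt ℝ f y :=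
  (hf.eventually (by simp)).mono fun _ h => h.differentiableAt (by norm_num)

theorem d_at (hf : ContDiffAt ℝ 2 f x) : DifferentiableAt ℝ f x := hf.differentiableAt (by norm_num)

theorem dg_at (hf : ContDiffAt ℝ 2 f x) : DifferentiableAt ℝ (gradient f) x :=
  (InnerProductSpace.toDual ℝ (E n)).symm.toContinuousLinearEquiv.differentiableAt.comp x
    ((hf.fderiv_right (m := 1) (by norm_num)).differentiableAt (by norm_num))

theorem lap_congr (h : f =ᶠ[𝓝 x] g) : lap f x = lap g x := dvg_congr h.gradient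

theorem lap_add_at (hf : ContDiffAt ℝ 2 f x) (hg : ContDiffAt ℝ 2 g x) :
    lap (fun y => f y + g y) x = lap f x + lap g x := by
  unfold lap
  rw [← dvg_add (dg_at hf) (dg_at hg)]
  exact dvg_congr (((ev_d hf).and (ev_d hg)).mono fun y h => grad_add h.1 h.2)

theorem lap_sub_at (hf : ContDiffAt ℝ 2 f x) (hg : ContDiffAt ℝ 2 g x) :
    lap (fun y => f y - g y) x = lap f x - lap g x := by
  unfold lap
  rw [← dvg_sub (dg_at hf) (dg_at hg)]
  exact dvg_congr (((ev_d hf).and (ev_d hg)).mono fun y h => grad_sub h.1 h.2)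

theorem lap_mul_at (hf : ContDiffAt ℝ 2 f x) (hg : ContDiffAt ℝ 2 g x) :
    lap (fun y => f y * g y) x =
      f x * lap g x + g x * lap f x + 2 * ⟪gradient f x, gradient g x⟫ := by
  unfold lap
  rw [dvg_congr (Y := fun y => f y • gradient g y + g y • gradient f y)
      (((ev_d hf).and (ev_d hg)).mono fun y h => grad_mul h.1 h.2),
    dvg_add ((d_at hf).fun_smul (dg_at hg)) ((d_at hg).fun_smul (dg_at hf)),
    dvg_smul (d_at hf) (dg_at hg), dvg_smul (d_at hg) (dg_at hf), ← inner_grad, ← inner_grad,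
    real_inner_comm (gradient f x)]
  ring

theorem lap_comp_at {φ φ₁ : ℝ → ℝ} {d : ℝ} (hf : ContDiffAt ℝ 2 f x)
    (h1 : ∀ᶠ t in 𝓝 (f x), HasDerivAt φ (φ₁ t) t) (h2 : HasDerivAt φ₁ d (f x)) :
    lap (fun y => φ (f y)) x = d * ‖gradient f x‖ ^ 2 + φ₁ (f x) * lap f x := by
  unfold lap
  have h3 : DifferentiableAt ℝ (fun y => φ₁ (f y)) x := h2.differentiableAt.comp x (d_at hf)
  rw [dvg_congr (Y := fun y => φ₁ (f y) • gradient f y)
      (((ev_d hf).and (hf.continuousAt.eventually h1)).mono fun y h => grad_comp h.2 h.1),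
    dvg_smul h3 (dg_at hf), ← inner_grad, grad_comp h2 (d_at hf), inner_smul_left,
    real_inner_self_eq_norm_sq]
  simp [add_comm]

/-- the Laplacian with the drift `b` -/
def Lb (b : E n) (φ : E n → ℝ) (x : E n) : ℝ := lap φ x + ⟪b, gradient φ x⟫

variable {b : E n}

theorem Lf_eq (u φ : E n → ℝ) (x : E n) : Lf u φ x = Lb (-(2 * √2 * u x) • pp u x) φ x := by
  rw [Lf, Lb, real_inner_smul_left]
  ring

theorem Lb_drift (b c : E n) (φ : E n → ℝ) (x : E n) :
    Lb (b + c) φ x = Lb b φ x + ⟪c, gradient φ x⟫ := by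
  rw [Lb, Lb, inner_add_left]
  ring

theorem Lb_congr (h : f =ᶠ[𝓝 x] g) : Lb b f x = Lb b g x := by
  rw [Lb, Lb, lap_congr h, h.gradient_eq]

theorem Lb_const (a : ℝ) : Lb b (fun _ => a) x = 0 := by
  rw [Lb, lap_const, grad_const, inner_zero_right, add_zero]

theorem Lb_add (hf : ContDiffAt ℝ 2 f x) (hg : ContDiffAt ℝ 2 g x) :
    Lb b (fun y => f y + g y) x = Lb b f x + Lb b g x := by
  rw [Lb, Lb, Lb, lap_add_at hf hg, grad_add (d_at hf) (d_at hg), inner_add_right]
  ring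

theorem Lb_sub (hf : ContDiffAt ℝ 2 f x) (hg : ContDiffAt ℝ 2 g x) :
    Lb b (fun y => f y - g y) x = Lb b f x - Lb b g x := by
  rw [Lb, Lb, Lb, lap_sub_at hf hg, grad_sub (d_at hf) (d_at hg), inner_sub_right]
  ring

theorem Lb_mul (hf : ContDiffAt ℝ 2 f x) (hg : ContDiffAt ℝ 2 g x) :
    Lb b (fun y => f y * g y) x =
      f x * Lb b g x + g x * Lb b f x + 2 * ⟪gradient f x, gradient g x⟫ := by
  rw [Lb, Lb, Lb, lap_mul_at hf hg, grad_mul (d_at hf) (d_at hg), inner_add_right,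
    real_inner_smul_right, real_inner_smul_right]
  ring

theorem Lb_cmul (a : ℝ) (hf : ContDiffAt ℝ 2 f x) : Lb b (fun y => a * f y) x = a * Lb b f x := by
  rw [Lb_mul contDiffAt_const hf, Lb_const, grad_const, inner_zero_left]
  ring

theorem Lb_comp {φ φ₁ : ℝ → ℝ} {d : ℝ} (hf : ContDiffAt ℝ 2 f x)
    (h1 : ∀ᶠ t in 𝓝 (f x), HasDerivAt φ (φ₁ t) t) (h2 : HasDerivAt φ₁ d (f x)) :
    Lb b (fun y => φ (f y)) x = φ₁ (f x) * Lb b f x + d * ‖gradient f x‖ ^ 2 := by
  rw [Lb, Lb, lap_comp_at hf h1 h2, grad_comp h1.self_of_nhds (d_at hf), real_inner_smul_right]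
  ring

theorem grad_inv (hf : DifferentiableAt ℝ f x) (h0 : f x ≠ 0) :
    gradient (fun y => (f y)⁻¹) x = (-(f x ^ 2)⁻¹) • gradient f x :=
  grad_comp (φ := fun t => t⁻¹) (hasDerivAt_inv h0) hf

theorem Lb_inv (hf : ContDiffAt ℝ 2 f x) (h0 : f x ≠ 0) :
    Lb b (fun y => (f y)⁻¹) x =
      -(f x ^ 2)⁻¹ * Lb b f x + 2 * (f x ^ 3)⁻¹ * ‖gradient f x‖ ^ 2 := by
  refine Lb_comp (φ := fun t => t⁻¹) (φ₁ := fun t => -(t ^ 2)⁻¹) hf
    ((eventually_ne_nhds h0).mono fun t ht => hasDerivAt_inv ht) ?_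
  refine (((hasDerivAt_pow 2 (f x)).inv (pow_ne_zero 2 h0)).neg).congr_deriv ?_
  field_simp
  norm_num [mul_comm]

/-- the Laplacian is invariant under isometries -/
theorem grad_iso (R : E n ≃ₗᵢ[ℝ] E n) (c : E n) (hf : DifferentiableAt ℝ f (c + R x)) :
    gradient (fun y => f (c + R y)) x = R.symm (gradient f (c + R x)) :=
  grad_ext fun w => by
    have h := (hf.hasFDerivAt.comp x
      ((R.toContinuousLinearEquiv.hasFDerivAt (x := x)).const_add c)).fderiv
    rw [show (fun y => f (c + R y)) = f ∘ fun y => c + R.toContinuousLinearEquiv y from rfl, h,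
      ← R.inner_map_map, LinearIsometryEquiv.apply_symm_apply, inner_grad]
    rfl

theorem lap_iso (R : E n ≃ₗᵢ[ℝ] E n) (c : E n) (hf : ContDiff ℝ 2 f) (x : E n) :
    lap (fun y => f (c + R y)) x = lap f (c + R x) := by
  unfold lap
  rw [show gradient (fun y => f (c + R y)) = fun y => R.symm (gradient f (c + R y)) from
    funext fun y => grad_iso R c (d2 hf _), dvg_eq, dvg_eq]
  have h := (R.symm.toContinuousLinearEquiv.hasFDerivAt.comp x ((dg2 hf (c + R x)).hasFDerivAt.comp x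
    ((R.toContinuousLinearEquiv.hasFDerivAt (x := x)).const_add c))).fderiv
  rw [show (fun y => R.symm (gradient f (c + R y))) = R.symm.toContinuousLinearEquiv ∘ gradient f ∘
    fun y => c + R.toContinuousLinearEquiv y from rfl, h, P366W.trc_comm,
    ContinuousLinearMap.comp_assoc]
  congr 1
  ext v
  simp

end Vale.Agent.P134J
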