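import Vale.Agent.P134J.Om
import Vale.Agent.P134R.Defs

/-!
# P134J: the two-point inequality for `GG` (E2) and the row SUP
-/

open Filter Topology
open scoped ContDiff RealInnerProductSpace
open Vale.Agent.P366.Stmt (E)
open Vale.Agent.P134B Vale.Agent.P134T
open Vale.Agent.P134C (th Pt Lt mu ph GG df)
open Vale.Agent.P134W (MU Low Sup)

noncomputable section

namespace Vale.Agent.P134J

variable {n : ℕ} {C : ℝ} {u φ : E n → ℝ} {x : E n}

theorem th_neg (u : E n → ℝ) : th (-u) = th u := funext fun x => by simp only [th, Sy.qq_neg]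

theorem Pt_neg (u : E n → ℝ) : Pt (-u) = Pt u := funext fun x => by
  simp [Pt, th_neg, Sy.qq_neg, Sy.PP_neg, Sy.SS_neg, hs]

theorem Lt_neg (u φ : E n → ℝ) : Lt (-u) φ = Lt u φ := funext fun x => by
  simp [Lt, Lf, th_neg, Sy.pp_neg]

theorem GG_neg (u : E n → ℝ) : GG (-u) = GG u := funext fun x => by
  rw [GG, GG, neg_neg, add_comm, max_comm (ph u x)]

theorem df_neg (u : E n → ℝ) : df (-u) = df u := funext fun x => by
  rw [df, df, neg_neg, Sy.ps_neg, Pi.neg_apply]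
  congr 1
  ring

theorem ph_nn (h0 : 0 ≤ mu u x) : 0 ≤ ph u x := div_nonneg h0 (h0.trans (le_max_right _ _))

theorem den (h0 : 0 ≤ mu u x) (h1 : ph u x < 1) : mu u x < th u x + ps u x * mu u x ∧
    ph u x = mu u x / (th u x + ps u x * mu u x) := by
  have : mu u x < th u x + ps u x * mu u x := by
    rcases h0.eq_or_lt with h | h
    · rw [← h, mul_zero, add_zero]
      exact th_pos u x
    · by_contra hc
      rw [ph, max_eq_right (not_lt.1 hc), div_self h.ne'] at h1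
      exact lt_irrefl _ h1
  exact ⟨this, by rw [ph, max_eq_left this.le]⟩

theorem quo_le {θ ψ t m : ℝ} (hθ : 0 < θ) (hm : 0 ≤ m) (htm : t ≤ m) (h1 : 0 < θ + ψ * t)
    (h2 : t < θ + ψ * t) : t / (θ + ψ * t) ≤ m / max (θ + ψ * m) m := by
  rcases le_or_gt (θ + ψ * m) m with h | h
  · have : m ≠ 0 := by
      rintro rfl
      linarith
    rw [max_eq_right h, div_self this]
    exact ((div_lt_one h1).2 h2).le
  · rw [max_eq_left h.le, div_le_div_iff₀ h1 (hm.trans_lt h)]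
    nlinarith

theorem quo_low (hm : MU) (h : Ok C u) (s : Low (mu u) φ x) (h1 : ph u x < 1) :
    Low (ph u) (quo u φ) x := by
  have m0 : ∀ y, 0 ≤ mu u y := (hm n C u h).2.1
  obtain ⟨d1, d2⟩ := den (m0 x) h1
  rw [← s.eq] at d1 d2
  have d3 : 0 < th u x + ps u x * φ x := (s.eq ▸ m0 x).trans_lt d1
  have c := (cd_den h s.c2).continuousAt
  refine ⟨cd_quo h s.c2 d3.ne', d2.symm, ?_⟩
  filter_upwards [s.le, continuousAt_const.eventually_lt c d3, s.c2.continuousAt.eventually_lt c d1]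
    with y a b c
  exact quo_le (th_pos u y) (m0 y) a b c

/-- the facts about one branch -/
theorem branch (hm : MU) (h : Ok C u) {a : E n} {R : ℝ} (s : Sup u φ x a R) (h1 : ph u x < 1)
    (h2 : ph (-u) x < 1) :
    (∀ w, ∃ v, th u x • v - ps u x • SS u x v = w) ∧
    (∀ v, ⟪SS u x v, th u x • v - ps u x • SS u x v⟫ ≤
      ph (-u) x * ⟪th u x • v - ps u x • SS u x v, th u x • v - ps u x • SS u x v⟫) ∧
    ∀ η, aL (SS u x) (th u x) (ps u x) (ph u x) (gradient (quo u φ) x) η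
      + th u x * R / (th u x + ps u x * mu u x) ^ 2
      ≤ Lt u (quo u φ) x + Pt u x * (ph u x * (1 - ps u x * ph u x)) := by
  obtain ⟨-, m1, -, -, t1, -⟩ := hm n C u h
  obtain ⟨-, m2, -, -, t2, -⟩ := hm n C (-u) (Sy.ok h)
  obtain ⟨d1, e1'⟩ := den (m1 x) h1
  obtain ⟨d2, e2⟩ := den (m2 x) h2
  rw [th_neg, Sy.ps_neg, Pi.neg_apply, neg_mul, ← sub_eq_add_neg] at d2 e2
  have w1 : 0 < th u x + ps u x * mu u x := (m1 x).trans_lt d1
  obtain ⟨n1, n2, n3⟩ := algN (SS u x) (h.sy x) (th_pos u x) w1 ((m2 x).trans_lt d2) (t1 x)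
    fun v => (t2 x v).trans_eq (by rw [P134W.TT, Sy.SS_neg]; rfl)
  refine ⟨n2, e2 ▸ n3, fun η => ?_⟩
  refine (e1' ▸ e1 h s (t1 x) rfl w1 n1 η).trans_eq ?_
  rw [e1', show P134W.m1 u x = mu u x from rfl]
  generalize eW : th u x + ps u x * mu u x = W at w1 ⊢
  rw [show th u x = W - ps u x * mu u x by rw [← eW]; ring]
  field_simp

/-- (E1, E2): the support of `GG`, if the first branch is the larger one -/
theorem e12' (hm : MU) (h : Ok C u) {φ₁ φ₂ : E n → ℝ} {a₁ a₂ : E n} {R₁ R₂ ι : ℝ}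
    (s₁ : Sup u φ₁ x a₁ R₁) (s₂ : Sup (-u) φ₂ x a₂ R₂) (G0 : 0 < GG u x) (G1 : GG u x < 1)
    (hle : ph (-u) x ≤ ph u x)
    (r₁ : -(ι * Pt u x * ph u x) ≤ th u x * R₁ / (th u x + ps u x * mu u x) ^ 2)
    (r₂ : ph u x ≤ 100 * ph (-u) x →
      -(ι * Pt u x * ph (-u) x) ≤ th (-u) x * R₂ / (th (-u) x + ps (-u) x * mu (-u) x) ^ 2) :
    ∃ φ, Low (GG u) φ x ∧ -(Pt u x * GG u x * (1 + ι + 100 / 99 * df u x))
      + 99 / 50 * ‖gradient φ x‖ ^ 2 / GG u x ≤ Lt u φ x := by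
  have p1 : 0 ≤ ph u x := ph_nn ((hm n C u h).2.1 x)
  have p2 : 0 ≤ ph (-u) x := ph_nn ((hm n C _ (Sy.ok h)).2.1 x)
  have g1 : ph u x + ph (-u) x ≤ GG u x := le_max_left _ _
  have h1 : ph u x < 1 := by linarith
  have h2 : ph (-u) x < 1 := by linarith
  have l1 := quo_low hm h s₁.low h1
  obtain ⟨n2, n3, b1⟩ := branch hm h s₁ h1 h2
  have hP := Pt_nn h x
  have d0 : 0 ≤ df u x := le_max_left _ _
  have d1 : ps u x * (ph (-u) x - ph u x) ≤ df u x := le_max_right _ _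
  rcases le_total (ph u x) (100 * ph (-u) x) with hc | hc
  · have l2 := quo_low hm (Sy.ok h) s₂.low h2
    obtain ⟨-, -, b2⟩ := branch hm (Sy.ok h) s₂ h2 (by rwa [neg_neg])
    have eG : GG u x = ph u x + ph (-u) x := max_eq_left (by rw [max_eq_left hle]; linarith)
    refine ⟨fun y => quo u φ₁ y + quo (-u) φ₂ y, ⟨l1.c2.add l2.c2, by rw [eG, l1.eq, l2.eq],
      (l1.le.and l2.le).mono fun y hy => (add_le_add hy.1 hy.2).trans (le_max_left _ _)⟩, ?_⟩
    rw [Lt_eq, Lb_add l1.c2 l2.c2, ← Lt_eq, ← Lt_eq, grad_add (d_at l1.c2) (d_at l2.c2)]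
    obtain ⟨η, hη⟩ := n2 ((GG u x)⁻¹ • (gradient (quo u φ₁) x + gradient (quo (-u) φ₂) x))
    have c1 := b1 η
    have c2 := (add_le_add_right (r₂ hc) _).trans (b2 η)
    simp only [aL, Lt_neg, Pt_neg, th_neg, Sy.ps_neg, Sy.SS_neg, Pi.neg_apply,
      _root_.neg_apply, neg_smul, smul_neg, neg_neg, inner_add_left, inner_neg_left,
      real_inner_smul_left] at c1 c2
    have e1 : ⟪th u x • η - ps u x • SS u x η, gradient (quo u φ₁) x⟫
        + ⟪th u x • η - ps u x • SS u x η, gradient (quo (-u) φ₂) x⟫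
        = ‖gradient (quo u φ₁) x + gradient (quo (-u) φ₂) x‖ ^ 2 / GG u x := by
      rw [← inner_add_right, hη, real_inner_smul_left, real_inner_self_eq_norm_sq]
      ring
    have e2 : (ph u x + ph (-u) x) * ⟪th u x • η - ps u x • SS u x η,
        th u x • η - ps u x • SS u x η⟫
        = ‖gradient (quo u φ₁) x + gradient (quo (-u) φ₂) x‖ ^ 2 / GG u x := by
      rw [← eG, hη, real_inner_smul_left, real_inner_smul_right, real_inner_self_eq_norm_sq]
      field_simp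
    have k1 := mul_le_mul_of_nonneg_left d1 (mul_nonneg hP G0.le)
    have k2 := mul_nonneg (mul_nonneg hP G0.le) d0
    have k3 : 0 ≤ ‖gradient (quo u φ₁) x + gradient (quo (-u) φ₂) x‖ ^ 2 / GG u x := by positivity
    rw [mul_div_assoc, ← e1] at *
    rw [eG] at k1 k2 ⊢
    linarith
  · have eG : GG u x = 101 / 100 * ph u x := by
      rw [GG, max_eq_left hle]
      exact max_eq_right (by linarith)
    refine ⟨fun y => 101 / 100 * quo u φ₁ y, ⟨contDiffAt_const.mul l1.c2, by rw [eG, l1.eq],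
      l1.le.mono fun y hy => (mul_le_mul_of_nonneg_left (hy.trans (le_max_left _ _))
        (by norm_num)).trans (le_max_right _ _)⟩, ?_⟩
    rw [Lt_eq, Lb_cmul _ l1.c2, ← Lt_eq, grad_cmul _ (d_at l1.c2), norm_smul, mul_pow,
      Real.norm_eq_abs, sq_abs]
    obtain ⟨η, hη⟩ := n2 ((GG u x)⁻¹ • gradient (quo u φ₁) x)
    have c1 := b1 η
    have c2 := n3 η
    simp only [aL, inner_add_left, real_inner_smul_left] at c1
    have e1 : ⟪th u x • η - ps u x • SS u x η, gradient (quo u φ₁) x⟫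
        = ‖gradient (quo u φ₁) x‖ ^ 2 / GG u x := by
      rw [hη, real_inner_smul_left, real_inner_self_eq_norm_sq]
      ring
    have e2 : GG u x * ⟪th u x • η - ps u x • SS u x η, th u x • η - ps u x • SS u x η⟫
        = ‖gradient (quo u φ₁) x‖ ^ 2 / GG u x := by
      rw [hη, real_inner_smul_left, real_inner_smul_right, real_inner_self_eq_norm_sq]
      field_simp
    have k0 := mul_le_mul_of_nonneg_right g1
      (real_inner_self_nonneg (x := th u x • η - ps u x • SS u x η))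
    have k1 : -(ps u x * ph u x) ≤ 100 / 99 * df u x := by
      rcases le_total 0 (ps u x) with hs | hs
      · linarith [mul_nonneg hs p1]
      · linarith [mul_le_mul_of_nonpos_left hc hs]
    have k2 := mul_le_mul_of_nonneg_left k1 (mul_nonneg hP G0.le)
    have k3 : 0 ≤ ‖gradient (quo u φ₁) x‖ ^ 2 / GG u x := by positivity
    rw [mul_div_assoc, mul_div_assoc, ← e1] at *
    rw [eG] at k2 ⊢
    linarith

/-- **SUP** from the supports of the opening and the bound for the remainders -/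
theorem sup_of (hm : MU) (hs : P134W.SUP) (h3 : P134R.E3) : P134C.SUP := fun n C ι hι => by
  obtain ⟨g₀, g0, h3⟩ := h3 n C 101 ι hι
  have rem : ∀ u : E n → ℝ, Ok C u → Stab u → ∀ x, 0 < GG u x → GG u x ≤ min g₀ (1 / 2) →
      ∃ φ a R, Sup u φ x a R ∧ (ph (-u) x ≤ 100 * ph u x →
        -(ι * Pt u x * ph u x) ≤ th u x * R / (th u x + ps u x * mu u x) ^ 2) := by
    intro u h st x G0 G1
    obtain ⟨φ, a, R, s, hR⟩ := hs n C u x h
    refine ⟨φ, a, R, s, fun hc => ?_⟩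
    have m0 : 0 ≤ mu u x := (hm n C u h).2.1 x
    have p1 := ph_nn m0
    have p2 : 0 ≤ ph (-u) x := ph_nn ((hm n C _ (Sy.ok h)).2.1 x)
    have g1 : ph u x + ph (-u) x ≤ GG u x := le_max_left _ _
    have g2 : GG u x ≤ 101 * ph u x := max_le (by linarith)
      ((mul_le_mul_of_nonneg_left (max_le (by linarith) hc) (by norm_num)).trans_eq (by ring))
    obtain ⟨d1, d2⟩ := den m0 (by linarith [min_le_right g₀ (1 / 2)])
    have m1 : mu u x ≠ 0 := fun h0 => by
      rw [d2, h0, zero_div] at g2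
      linarith
    refine (h3 u x (GG u x) R h st G0 (G1.trans (min_le_left _ _)) (by linarith) (by linarith) g2
      ?_).trans_eq ?_
    · rcases hR with ⟨h0, -⟩ | ⟨z, h1, -, h2⟩ | h1
      exacts [absurd h0 m1, Or.inl ⟨z, h1, h2⟩, Or.inr h1]
    · rw [d2]
      field_simp
  refine ⟨min g₀ (1 / 2), lt_min g0 (by norm_num), fun u h st x G0 G1 η hη => ?_⟩
  have st' : Stab (-u) := fun φ a b => by simpa using st φ a b
  obtain ⟨φ₁, a₁, R₁, s₁, r₁⟩ := rem u h st x G0 G1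
  obtain ⟨φ₂, a₂, R₂, s₂, r₂⟩ := rem (-u) (Sy.ok h) st' x (GG_neg u ▸ G0) (GG_neg u ▸ G1)
  have G2 : GG u x < 1 := by linarith [min_le_right g₀ (1 / 2)]
  have p1 : 0 ≤ ph u x := ph_nn ((hm n C u h).2.1 x)
  have p2 : 0 ≤ ph (-u) x := ph_nn ((hm n C _ (Sy.ok h)).2.1 x)
  rw [neg_neg, Pt_neg] at r₂
  suffices k : ∃ φ, Low (GG u) φ x ∧ -(Pt u x * GG u x * (1 + ι + 100 / 99 * df u x))
      + 99 / 50 * ‖gradient φ x‖ ^ 2 / GG u x ≤ Lt u φ x by
    obtain ⟨φ, l, k⟩ := k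
    exact ⟨φ, l.c2, l.eq, l.le, by linarith⟩
  rcases le_total (ph (-u) x) (ph u x) with hc | hc
  · exact e12' hm h s₁ s₂ G0 G2 hc (r₁ (by linarith)) r₂
  · have := e12' (ι := ι) hm (Sy.ok h) s₂ (by rwa [neg_neg]) (GG_neg u ▸ G0) (GG_neg u ▸ G2)
      (by rwa [neg_neg]) (Pt_neg u ▸ r₂ (by linarith)) (by rwa [neg_neg, Pt_neg])
    simpa only [GG_neg, Pt_neg, df_neg, Lt_neg] using this

end Vale.Agent.P134J
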