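import Vale.Agent.P134J.Loc

/-!
# P134J: the algebra of the two-point inequality
-/

open Finset
open scoped RealInnerProductSpace
open Vale.Agent.P366.Stmt (E)

noncomputable section

namespace Vale.Agent.P134J

variable {n : ℕ}

/-- coordinates in an orthonormal basis of eigenvectors -/
theorem spec (S : E n →L[ℝ] E n) (hS : ∀ v w, ⟪S v, w⟫ = ⟪v, S w⟫) :
    ∃ (c : E n →ₗ[ℝ] Fin n → ℝ) (l : Fin n → ℝ), (∀ x y, ⟪x, y⟫ = ∑ i, c x i * c y i) ∧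
      (∀ x i, c (S x) i = l i * c x i) ∧ Function.Bijective c := by
  have hs : (S : E n →ₗ[ℝ] E n).IsSymmetric := hS
  have hn : Module.finrank ℝ (E n) = n := by simp
  set b := hs.eigenvectorBasis hn
  refine ⟨(WithLp.linearEquiv 2 ℝ (Fin n → ℝ)).toLinearMap ∘ₗ b.repr.toLinearEquiv.toLinearMap,
    hs.eigenvalues hn, fun x y => ?_, fun x i => ?_,
    (WithLp.linearEquiv 2 ℝ (Fin n → ℝ)).bijective.comp b.repr.bijective⟩
  · rw [← b.repr.inner_map_map, P366W.inner_eq_sum]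
    rfl
  · exact hs.eigenvectorBasis_apply_self_apply hn x i

theorem spec_test {c : E n →ₗ[ℝ] Fin n → ℝ} (hc : Function.Bijective c) (i : Fin n) :
    ∃ x, c x = Pi.single i 1 := hc.2 _

/-- `2 (2 ⟪N η, g⟫ - ⟪φ N η + S η, N η⟫)`, `N = θ - ψ S` -/
def aL (S : E n →L[ℝ] E n) (θ ψ φ : ℝ) (g η : E n) : ℝ :=
  2 * (2 * ⟪θ • η - ψ • S η, g⟫ - ⟪φ • (θ • η - ψ • S η) + S η, θ • η - ψ • S η⟫)

def aR (S : E n →L[ℝ] E n) (θ ψ μ W K : ℝ) (a p : E n) : ℝ :=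
  (θ * K - 2 * μ / θ * ⟪S p, S p + μ • p⟫ - 4 * μ * ⟪p, a⟫ - 2 * ψ * ⟪a, a⟫) / W ^ 2
    + 2 * μ / W ^ 3 * ⟪S p + μ • p + ψ • a, S p + μ • p + ψ • a⟫

/-- the quadratic inequality for one branch -/
theorem alg (S : E n →L[ℝ] E n) (hS : ∀ v w, ⟪S v, w⟫ = ⟪v, S w⟫) {θ μ ψ W K : ℝ} (hθ : 0 < θ)
    (hW : 0 < W) (eW : W = θ + ψ * μ) (a p η : E n)
    (hN : 0 ≤ ψ → ∀ v, 0 ≤ ⟪θ • v - ψ • S v, v⟫)
    (hK : ∀ ξ, 2 * (2 * ⟪ξ, a⟫ - ⟪ξ, S ξ + μ • ξ⟫) ≤ K) :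
    aL S θ ψ (μ / W) ((W ^ 2)⁻¹ • (θ • a - μ • (S p + μ • p))) η ≤ aR S θ ψ μ W K a p := by
  obtain ⟨c, l, h1, h2, h3⟩ := spec S hS
  have eθ : θ = W - ψ * μ := by rw [eW]; ring
  have key : ∀ ξ, aR S θ ψ μ W (2 * (2 * ⟪ξ, a⟫ - ⟪ξ, S ξ + μ • ξ⟫)) a p ≤ aR S θ ψ μ W K a p :=
    fun ξ => by
      unfold aR
      gcongr
      exact hK ξ
  rcases le_total 0 ψ with h | h
  · refine le_trans ?_ (key ((θ * W)⁻¹ • ((ψ * θ) • a + (θ • (μ • p + (θ * W) • η)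
      - ψ • S (μ • p + (θ * W) • η)))))
    unfold aL aR
    simp only [h1, map_add, map_sub, map_smul, Pi.add_apply, Pi.sub_apply, Pi.smul_apply,
      smul_eq_mul, h2]
    simp only [mul_sum, sum_div, ← sum_add_distrib, ← sum_sub_distrib]
    refine sum_le_sum fun i _ => ?_
    obtain ⟨x, hx⟩ := spec_test h3 i
    have hn := hN h x
    simp only [h1, map_sub, map_smul, Pi.sub_apply, Pi.smul_apply, smul_eq_mul, h2, hx,
      Pi.single_apply, mul_ite, mul_one, mul_zero, sum_ite_eq', mem_univ, if_true] at hn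
    rw [← sub_nonneg]
    refine le_of_le_of_eq (mul_nonneg (mul_nonneg (mul_nonneg hn h)
      (by positivity : 0 ≤ 2 / (θ * W ^ 4)))
      (sq_nonneg (θ * c a i - (l i + μ) * (μ * c p i + θ * W * c η i)))) ?_
    field_simp
    rw [eθ]
    ring
  · refine le_trans ?_ (key (θ⁻¹ • (μ • p + (θ * W) • η)))
    unfold aL aR
    simp only [h1, map_add, map_sub, map_smul, Pi.add_apply, Pi.sub_apply, Pi.smul_apply,
      smul_eq_mul, h2]
    simp only [mul_sum, sum_div, ← sum_add_distrib, ← sum_sub_distrib]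
    refine sum_le_sum fun i _ => ?_
    rw [← sub_nonneg]
    refine le_of_le_of_eq (mul_nonneg (mul_nonneg (neg_nonneg.2 h)
      (by positivity : 0 ≤ 2 / (θ * W ^ 3)))
      (sq_nonneg (θ * c a i - (l i + μ) * (μ * c p i + θ * W * c η i)))) ?_
    field_simp
    rw [eθ]
    ring

/-- positivity, surjectivity and the two-sided bound for `N = θ - ψ S` -/
theorem algN (S : E n →L[ℝ] E n) (hS : ∀ v w, ⟪S v, w⟫ = ⟪v, S w⟫) {θ μ ν ψ : ℝ} (hθ : 0 < θ)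
    (h1 : 0 < θ + ψ * μ) (h2 : 0 < θ - ψ * ν) (t1 : ∀ v, 0 ≤ ⟪v, S v + μ • v⟫)
    (t2 : ∀ v, 0 ≤ ⟪v, -S v + ν • v⟫) :
    (∀ v, 0 ≤ ⟪θ • v - ψ • S v, v⟫) ∧ (∀ w, ∃ v, θ • v - ψ • S v = w) ∧
      ∀ v, ⟪S v, θ • v - ψ • S v⟫ ≤ ν / (θ - ψ * ν) * ⟪θ • v - ψ • S v, θ • v - ψ • S v⟫ := by
  obtain ⟨c, l, e1, e2, e3⟩ := spec S hS
  have hl : ∀ i, -μ ≤ l i ∧ l i ≤ ν := fun i => by
    obtain ⟨x, hx⟩ := spec_test e3 i
    have a := t1 x
    have b := t2 x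
    simp only [e1, map_add, map_neg, map_smul, Pi.add_apply, Pi.neg_apply, Pi.smul_apply,
      smul_eq_mul, e2, hx, Pi.single_apply, ite_mul, one_mul, zero_mul, sum_ite_eq', mem_univ,
      if_true, mul_one] at a b
    exact ⟨by linarith, by linarith⟩
  have hn : ∀ i, 0 < θ - ψ * l i := fun i => by
    rcases le_total 0 ψ with h | h
    · linarith [mul_le_mul_of_nonneg_left (hl i).2 h]
    · linarith [mul_le_mul_of_nonpos_left (hl i).1 h]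
  refine ⟨fun v => ?_, fun w => ?_, fun v => ?_⟩
  · simp only [e1, map_sub, map_smul, Pi.sub_apply, Pi.smul_apply, smul_eq_mul, e2]
    exact sum_nonneg fun i _ => (mul_nonneg (hn i).le (sq_nonneg (c v i))).trans_eq (by ring)
  · obtain ⟨v, hv⟩ := e3.2 fun i => c w i / (θ - ψ * l i)
    refine ⟨v, e3.1 (funext fun i => ?_)⟩
    simp only [map_sub, map_smul, Pi.sub_apply, Pi.smul_apply, smul_eq_mul, e2, hv]
    have := (hn i).ne'
    field_simp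
  · simp only [e1, map_sub, map_smul, Pi.sub_apply, Pi.smul_apply, smul_eq_mul, e2, mul_sum]
    refine sum_le_sum fun i _ => ?_
    rw [← sub_nonneg]
    refine le_of_le_of_eq (mul_nonneg (mul_nonneg (mul_nonneg (hn i).le (sub_nonneg.2 (hl i).2))
      (by positivity : 0 ≤ θ / (θ - ψ * ν))) (sq_nonneg (c v i))) ?_
    field_simp
    ring

end Vale.Agent.P134J
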